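/-
P336: the same improvement for every bottom fan-in.
-/
import Vale.Agent.Lib.P336_h66.Bottom
import Vale.Agent.Lib.P336_h66.Universal

namespace Vale.Agent.Results.P336.B_bottom

open Vale.Agent.Lib.P336_h66

/-- There are `ε > 0`, a fixed `r` and `K₀` such that for every bottom fan-in `K ≥ K₀` and every `m`,
every depth-three circuit whose bottom gates have at most `K` literals and which decides the code
`rmMember r m` on `n = 2^m` bits has at least `2^((π²/6+ε) n / K - (m+1)^r)` gates. -/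
theorem result : ∃ ε > (0 : ℝ), ∃ r K₀ : ℕ, ∀ K ≥ K₀, ∀ m : ℕ, ∀ C : Depth3 (Fin m → Bool),
    (∀ b, (C.bot b).1.card ≤ K) → (∀ x, C.eval x ↔ rmMember r m x) →
    (2 : ℝ) ^ ((Real.pi ^ 2 / 6 + ε) * (2 : ℝ) ^ m / K) ≤ 2 ^ ((m + 1) ^ r) * (C.size : ℝ) := by
  obtain ⟨ε₀, hε₀, hU⟩ := universal_main
  exact ⟨ε₀, hε₀, bottom_of_universal _ hU⟩

end Vale.Agent.Results.P336.B_bottom
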