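import Vale.Agent.Results.P336.A_constant
import Vale.Agent.Results.P336.B_bottom

namespace Vale.Agent.Results.P336.A00_master

open Vale.Agent.Lib.P336_h66

/-- The statement of part 1. -/
def part1 : Prop :=
  ∃ ε > (0 : ℝ), ∃ r m₀ : ℕ, ∀ m ≥ m₀, ∀ C : Depth3 (Fin m → Bool),
      (∀ x, C.eval x ↔ rmMember r m x) →
      (2 : ℝ) ^ ((Real.pi / Real.sqrt 6 + ε) * Real.sqrt ((2 : ℝ) ^ m)) ≤ C.size

/-- The statement of part 2. -/
def part2 : Prop :=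
  ∃ ε > (0 : ℝ), ∃ r K₀ : ℕ, ∀ K ≥ K₀, ∀ m : ℕ, ∀ C : Depth3 (Fin m → Bool),
      (∀ b, (C.bot b).1.card ≤ K) → (∀ x, C.eval x ↔ rmMember r m x) →
      (2 : ℝ) ^ ((Real.pi ^ 2 / 6 + ε) * (2 : ℝ) ^ m / K) ≤ 2 ^ ((m + 1) ^ r) * (C.size : ℝ)

theorem result : part1 ∧ part2 :=
  ⟨@Vale.Agent.Results.P336.A_constant.result, @Vale.Agent.Results.P336.B_bottom.result⟩

end Vale.Agent.Results.P336.A00_master
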