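/-
P336: the leading constant `π/√6` of Paturi, Pudlak, Saks and Zane for explicit depth-three lower
bounds is not optimal: membership in a Reed-Muller type code with a fixed number `r` of checks
needs more than `2^((π/√6+ε) √n)` gates, on `n = 2^m` bits.
The proof goes through a universal lower bound for exponential moments of the number of forced
variables of critical tree systems (window Jensen bound plus the asymmetry inequality).
-/
import Vale.Agent.Lib.P336_h66.Final
import Vale.Agent.Lib.P336_h66.Universal

namespace Vale.Agent.Results.P336.A_constant

open Vale.Agent.Lib.P336_h66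

/-- Strict improvement of the constant `π/√6` for depth-three circuits: there are `ε > 0` and a fixed
`r` such that for all large `m` every depth-three circuit deciding the code `rmMember r m` on
`n = 2^m` bits has at least `2^((π/√6+ε) √n)` gates. -/
theorem result : ∃ ε > (0 : ℝ), ∃ r m₀ : ℕ, ∀ m ≥ m₀, ∀ C : Depth3 (Fin m → Bool),
    (∀ x, C.eval x ↔ rmMember r m x) →
    (2 : ℝ) ^ ((Real.pi / Real.sqrt 6 + ε) * Real.sqrt ((2 : ℝ) ^ m)) ≤ C.size := by
  obtain ⟨ε₀, hε₀, hU⟩ := universal_main
  exact final_of_universal ε₀ hε₀ hU

end Vale.Agent.Results.P336.A_constant
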